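import Vale.Agent.P141.H795.Grid
import Vale.Agent.P141.H677.Fam2
import Vale.Agent.P141.H609.NodeStep
import Vale.Agent.P141.H958.Enc2
import Vale.Agent.P141.H338.Lab4
import Vale.Agent.P141.H210.ShiftO

/-!
# P141, line (A): the node sums on the shifted grids as labelled node forms

Letters: `z` = `x3`, `x` = `x1`, `y` = `x2`; nodes of a form in the order `(m3, m2, m1)`.

* `nd_nf3` : the triple Haar node form of a triangular integrand is `H677.nf3`;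
* `sft`, `sft_shf`, `tr_tri`, `tr_GA` : the translated integrand, cut to the root, is the
  triangular integrand of the translated functions (`H210.shf` of `H210.rst`);
* `TS_forms`, `TS_GA` : `H795.TS` in the letters of `bx3`;
* `nf3_tri`, `nf3_T3` : the node form with the labels as the last `L` digits;
* `sL`, `gA`, `gB`, `gC`, `UN_nf3`, `tri_nf3` : the sum over the nodes as `H609.UN` and as the left
  side of `H619.stage`; `nf3_inr`, `nf3_inl` : stacked slots;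
* `sum_TS`, `sum_TS_tri`, `sum_TS_UN` : the node sums of `H795.abel_grid` on one grid, all scales.
-/

namespace Vale.Agent.P141.H747

open Finset Matrix
open Vale.Agent.P075 (T3)
open Vale.Agent.P141.PL (Pt iv hs ix mem_iv cb mem_cb cx tri)
open Vale.Agent.P141.PL.H560 (cbs)
open Vale.Agent.P141.PL.H804 (bx3 bl)
open Vale.Agent.P141.H958 (dup encR lbs rg)
open Vale.Agent.P141.H338 (cu)
open Vale.Agent.P141.H677 (rv rv_rv nf3 GA)
open Vale.Agent.P141.H795 (nd tr TS E8 ys)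
open Vale.Agent.P141.H609 (UN NM)

noncomputable section

open scoped Classical

variable {κ : Type*} [Fintype κ]

/-! ### The node form -/

/-- **The triple Haar node form of a triangular integrand.** -/
theorem nd_nf3 (A : ℤ → ℤ → ℝ) (b C : ℤ → ℤ → κ → ℝ) (k : ℕ) (m : Pt) :
    nd k m (fun x => A x.2.2 x.2.1 * (b x.1 x.2.1 ⬝ᵥ C x.2.2 x.1)) = nf3 A b C k (rv m) := by
  unfold H795.nd H677.nf3 PL.cb
  congr 1
  rw [sum_product]
  simp only [sum_product]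
  have e : ∀ f : ℤ → ℤ → ℤ → ℝ, ∑ x1 ∈ iv k m.1, ∑ x2 ∈ iv k m.2.1, ∑ x3 ∈ iv k m.2.2,
      f x1 x2 x3 = ∑ x3 ∈ iv k m.2.2, ∑ x1 ∈ iv k m.1, ∑ x2 ∈ iv k m.2.1, f x1 x2 x3 := by
    intro f
    rw [sum_comm (s := iv k m.2.2)]
    exact sum_congr rfl fun x1 _ => sum_comm
  rw [e]
  unfold H677.rv
  refine sum_congr rfl fun z _ => sum_congr rfl fun x _ => sum_congr rfl fun y _ => ?_
  ring

/-! ### The translated integrand -/

/-- the function translated by `(a, b)`, cut to the root `(R, S)` -/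
def sft {E : Type*} [Zero E] (N : ℕ) (R S a b : ℤ) (f : ℤ → ℤ → E) (x y : ℤ) : E :=
  if ix N (x + a) = R ∧ ix N (y + b) = S then f (x + a) (y + b) else 0

/-- the letters of `H210` -/
theorem sft_shf (N : ℕ) (R S a b : ℤ) (A : ℕ → ℤ → ℤ → ℝ) (k : ℕ) :
    sft N R S a b (A k) = H210.shf a b (H210.rst N R S A) k := by
  funext x y
  unfold sft H210.shf H210.rst
  rfl

/-- **The translated integrand, cut to the root.** -/
theorem tr_tri (N : ℕ) (M s : Pt) (A : ℤ → ℤ → ℝ) (b C : ℤ → ℤ → κ → ℝ) :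
    tr N M s (fun x => A x.2.2 x.2.1 * (b x.1 x.2.1 ⬝ᵥ C x.2.2 x.1)) = fun x =>
      sft N M.2.2 M.2.1 s.2.2 s.2.1 A x.2.2 x.2.1 *
        (sft N M.1 M.2.1 s.1 s.2.1 b x.1 x.2.1 ⬝ᵥ sft N M.2.2 M.1 s.2.2 s.1 C x.2.2 x.1) := by
  funext x
  unfold H795.tr sft
  have h : cx N (x + s) = M ↔
      ix N (x.1 + s.1) = M.1 ∧ ix N (x.2.1 + s.2.1) = M.2.1 ∧ ix N (x.2.2 + s.2.2) = M.2.2 := by
    unfold PL.cx
    rw [Prod.ext_iff, Prod.ext_iff]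
    rfl
  by_cases h1 : ix N (x.1 + s.1) = M.1
  · by_cases h2 : ix N (x.2.1 + s.2.1) = M.2.1
    · by_cases h3 : ix N (x.2.2 + s.2.2) = M.2.2
      · rw [if_pos (h.2 ⟨h1, h2, h3⟩), if_pos ⟨h3, h2⟩, if_pos ⟨h1, h2⟩, if_pos ⟨h3, h1⟩]
        rfl
      · rw [if_neg fun e => h3 (h.1 e).2.2, if_neg fun e => h3 e.1, zero_mul]
    · rw [if_neg fun e => h2 (h.1 e).2.1, if_neg fun e => h2 e.2, zero_mul]
  · rw [if_neg fun e => h1 (h.1 e).1, if_neg (fun e => h1 e.1 : ¬ (ix N (x.1 + s.1) = M.1 ∧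
      ix N (x.2.1 + s.2.1) = M.2.1)), zero_dotProduct, mul_zero]

/-- the Abel integrand as a triangular integrand, the matrix in the slot `C` -/
theorem GA_tri (A : ℕ → ℤ → ℤ → ℝ) (b C : ℕ → ℤ → ℤ → κ → ℝ) (R : ℕ → ℤ → ℤ → Matrix κ κ ℝ)
    (i j : ℕ) : GA A b C R i j = fun x : Pt =>
      A j x.2.2 x.2.1 * (b j x.1 x.2.1 ⬝ᵥ (fun z w => R i z w *ᵥ C j z w) x.2.2 x.1) := rfl

/-- **The translated Abel integrand.** -/
theorem tr_GA (N : ℕ) (M s : Pt) (A : ℕ → ℤ → ℤ → ℝ) (b C : ℕ → ℤ → ℤ → κ → ℝ)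
    (R : ℕ → ℤ → ℤ → Matrix κ κ ℝ) (i j : ℕ) : tr N M s (GA A b C R i j) = fun x =>
      sft N M.2.2 M.2.1 s.2.2 s.2.1 (A j) x.2.2 x.2.1 *
        (sft N M.1 M.2.1 s.1 s.2.1 (b j) x.1 x.2.1 ⬝ᵥ
          sft N M.2.2 M.1 s.2.2 s.1 (fun z w => R i z w *ᵥ C j z w) x.2.2 x.1) := by
  rw [GA_tri, tr_tri N M s (A j) (b j) (fun z w => R i z w *ᵥ C j z w)]

/-- the nodes of a plane, the other order -/
theorem sum_cbs_rv (N : ℕ) (M : Pt) (k : ℕ) (c : ℤ) (g : Pt → ℝ) :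
    ∑ m ∈ cbs N M k with m.1 + m.2.1 + m.2.2 = c, g m = ∑ m ∈ bx3 N (rv M) k c, g (rv m) := by
  refine sum_nbij' rv rv (fun m hm => ?_) (fun m hm => ?_) (fun _ _ => rfl) (fun _ _ => rfl)
    fun _ _ => rfl
  · rw [mem_filter] at hm
    unfold PL.H560.cbs at hm
    rw [mem_product, mem_product] at hm
    unfold PL.H804.bx3 H677.rv
    rw [mem_filter, mem_product, mem_product]
    refine ⟨⟨hm.1.2.2, hm.1.2.1, hm.1.1⟩, ?_⟩
    rw [← hm.2]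
    ring
  · unfold PL.H804.bx3 at hm
    rw [mem_filter, mem_product, mem_product] at hm
    rw [mem_filter]
    unfold PL.H560.cbs H677.rv
    rw [mem_product, mem_product]
    refine ⟨⟨hm.1.2.2, hm.1.2.1, hm.1.1⟩, ?_⟩
    rw [← hm.2]
    ring

/-- **The node sums of one grid in forms**, triangular integrand. -/
theorem TS_forms (N : ℕ) (M : Pt) (c : ℤ) (k : ℕ) (s : Pt) (A : ℤ → ℤ → ℝ)
    (b C : ℤ → ℤ → κ → ℝ) :
    TS N M c k s (fun x => A x.2.2 x.2.1 * (b x.1 x.2.1 ⬝ᵥ C x.2.2 x.1)) =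
      ∑ j ∈ Icc (0 : ℤ) 2, ∑ e ∈ E8, ∑ m ∈ bx3 N (rv (M - e)) k (ix k (ys c s) - j),
        |nf3 (sft N M.2.2 M.2.1 s.2.2 s.2.1 A) (sft N M.1 M.2.1 s.1 s.2.1 b)
          (sft N M.2.2 M.1 s.2.2 s.1 C) k m| := by
  unfold H795.TS
  refine sum_congr rfl fun j _ => sum_congr rfl fun e _ => ?_
  rw [sum_cbs_rv N (M - e) k (ix k (ys c s) - j)]
  refine sum_congr rfl fun m _ => ?_
  rw [tr_tri, nd_nf3, rv_rv]

/-- **The node sums of one grid in forms**, Abel integrand. -/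
theorem TS_GA (N : ℕ) (M : Pt) (c : ℤ) (k : ℕ) (s : Pt) (A : ℕ → ℤ → ℤ → ℝ)
    (b C : ℕ → ℤ → ℤ → κ → ℝ) (R : ℕ → ℤ → ℤ → Matrix κ κ ℝ) (i j' : ℕ) :
    TS N M c k s (GA A b C R i j') =
      ∑ j ∈ Icc (0 : ℤ) 2, ∑ e ∈ E8, ∑ m ∈ bx3 N (rv (M - e)) k (ix k (ys c s) - j),
        |nf3 (sft N M.2.2 M.2.1 s.2.2 s.2.1 (A j')) (sft N M.1 M.2.1 s.1 s.2.1 (b j'))
          (sft N M.2.2 M.1 s.2.2 s.1 fun z w => R i z w *ᵥ C j' z w) k m| :=
  TS_forms N M c k s (A j') (b j') fun z w => R i z w *ᵥ C j' z w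

/-! ### The labels as the last digits -/

section lab

variable {L : ℕ} {e : κ → ℤ}

/-- **The node form as a triangular form of the scale `k + L`.** -/
theorem nf3_tri (he : Function.Injective e) (hm : ∀ i, e i ∈ lbs L) {k : ℕ} (hk : 1 ≤ k)
    (A : ℤ → ℤ → ℝ) (b C : ℤ → ℤ → κ → ℝ) (m : Pt) :
    nf3 A b C k m = (4 ^ L : ℝ)⁻¹ * ((2 ^ (k + L) : ℝ)⁻¹ * tri (k + L) m (dup L A)
      (encR L fun lab y x => cu e (b x y) lab) (encR L fun lab z x => cu e (C z x) lab)) := by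
  rw [H958.tri_enc3 hk]
  have e1 : ∑ lab ∈ lbs L, tri k m A (fun y x => cu e (b x y) lab)
      (fun z x => cu e (C z x) lab) = ∑ z ∈ iv k m.1, ∑ x ∈ iv k m.2.2, ∑ y ∈ iv k m.2.1,
        hs k z * hs k x * hs k y * (A z y * (b x y ⬝ᵥ C z x)) := by
    unfold PL.tri
    rw [sum_comm]
    refine sum_congr rfl fun z _ => ?_
    rw [sum_comm (s := iv k m.2.2)]
    rw [sum_comm]
    refine sum_congr rfl fun y _ => ?_
    rw [sum_comm]
    refine sum_congr rfl fun x _ => ?_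
    have h := H338.sum_cu_cu he hm (b x y) (C z x)
    unfold dotProduct
    rw [← h, mul_sum, mul_sum]
    refine sum_congr rfl fun lab _ => ?_
    ring
  rw [e1]
  unfold H677.nf3
  have h4 : (4 : ℝ) ^ L = 2 ^ L * 2 ^ L := by rw [← mul_pow]; norm_num
  rw [H958.eight_pow, h4, pow_add]
  field_simp

/-- the matrix of the plain function -/
def mA (L : ℕ) (A : ℤ → ℤ → ℝ) (k : ℕ) (m : Pt) : Matrix (Vale.Agent.P075.Ix k) (Vale.Agent.P075.Ix k) ℝ :=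
  bl k (dup L A) m.1 m.2.1

/-- the matrix of `b` -/
def mB (L : ℕ) (e : κ → ℤ) (b : ℤ → ℤ → κ → ℝ) (k : ℕ) (m : Pt) :
    Matrix (Vale.Agent.P075.Ix k) (Vale.Agent.P075.Ix k) ℝ :=
  bl k (encR L fun lab y x => cu e (b x y) lab) m.2.1 m.2.2

/-- the matrix of `C` -/
def mC (L : ℕ) (e : κ → ℤ) (C : ℤ → ℤ → κ → ℝ) (k : ℕ) (m : Pt) :
    Matrix (Vale.Agent.P075.Ix k) (Vale.Agent.P075.Ix k) ℝ :=
  (bl k (encR L fun lab z x => cu e (C z x) lab) m.1 m.2.2)ᵀ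

/-- **The labelled matrix form of a node.** -/
theorem nf3_T3 (he : Function.Injective e) (hm : ∀ i, e i ∈ lbs L) {k : ℕ} (hk : 1 ≤ k)
    (A : ℤ → ℤ → ℝ) (b C : ℤ → ℤ → κ → ℝ) (m : Pt) :
    nf3 A b C k m = (4 ^ L : ℝ)⁻¹ * ((2 ^ (k + L) : ℝ)⁻¹ *
      T3 (PL.H588.hd (k + L)) (mA L A (k + L) m) (mB L e b (k + L) m) (mC L e C (k + L) m)) := by
  rw [nf3_tri he hm hk, PL.H804.tri_eq' (by omega : 1 ≤ k + L)]
  rfl

theorem abs_nf3_T3 (he : Function.Injective e) (hm : ∀ i, e i ∈ lbs L) {k : ℕ} (hk : 1 ≤ k)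
    (A : ℤ → ℤ → ℝ) (b C : ℤ → ℤ → κ → ℝ) (m : Pt) :
    |nf3 A b C k m| = (4 ^ L : ℝ)⁻¹ * |(2 ^ (k + L) : ℝ)⁻¹ *
      T3 (PL.H588.hd (k + L)) (mA L A (k + L) m) (mB L e b (k + L) m) (mC L e C (k + L) m)| := by
  rw [nf3_T3 he hm hk, abs_mul, abs_of_nonneg (by positivity : (0 : ℝ) ≤ (4 ^ L)⁻¹)]

/-! ### Families -/

/-- the nodes on the fine scales -/
def sL (L : ℕ) (s : ℕ → Finset Pt) (k : ℕ) : Finset Pt := if L < k then s (k - L) else ∅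

theorem sL_add (L : ℕ) (s : ℕ → Finset Pt) {k : ℕ} (hk : 1 ≤ k) : sL L s (k + L) = s k := by
  unfold sL
  rw [if_pos (by omega), Nat.add_sub_cancel]

theorem sL_sub {L N : ℕ} {s : ℕ → Finset Pt} {R : Pt} {c : ℕ → ℤ}
    (hs : ∀ k ∈ Icc 1 N, s k ⊆ bx3 N R k (c k)) :
    ∀ k ∈ Icc 1 (N + L), sL L s k ⊆ bx3 (N + L) R k (c (k - L)) := by
  intro k hk
  rw [mem_Icc] at hk
  unfold sL
  split_ifs with h
  · have h1 := hs (k - L) (by rw [mem_Icc]; omega)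
    unfold PL.H804.bx3 at h1 ⊢
    rwa [show N + L - k = N - (k - L) by omega]
  · exact empty_subset _

/-- the sum over the fine scales -/
theorem sum_sL (L N : ℕ) (s : ℕ → Finset Pt) (f : ℕ → Pt → ℝ) :
    ∑ k ∈ Icc 1 (N + L), ∑ m ∈ sL L s k, f k m =
      ∑ k ∈ Icc 1 N, ∑ m ∈ s k, f (k + L) m := by
  have e1 : ∑ k ∈ Icc 1 N, ∑ m ∈ s k, f (k + L) m =
      ∑ k ∈ Icc (1 + L) (N + L), ∑ m ∈ sL L s k, f k m := by
    refine sum_nbij' (fun k => k + L) (fun k => k - L) (fun k hk => ?_) (fun k hk => ?_)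
      (fun k _ => Nat.add_sub_cancel ..) (fun k hk => ?_) fun k hk => ?_
    · rw [mem_Icc] at hk ⊢
      omega
    · rw [mem_Icc] at hk ⊢
      omega
    · rw [mem_Icc] at hk
      exact Nat.sub_add_cancel (by omega)
    · rw [sL_add L s (mem_Icc.1 hk).1]
  rw [e1]
  symm
  refine sum_subset (fun k hk => ?_) fun k _ hk => ?_
  · rw [mem_Icc] at hk ⊢
    omega
  · unfold sL
    rw [if_neg, sum_empty]
    intro h
    apply hk
    rw [mem_Icc] at *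
    omega

/-- the family of the plain functions on the fine scales -/
def gA (L : ℕ) (A : ℕ → ℤ → ℤ → ℝ) (k : ℕ) : ℤ → ℤ → ℝ := dup L (A (k - L))

/-- the family of `b` on the fine scales -/
def gB (L : ℕ) (e : κ → ℤ) (b : ℕ → ℤ → ℤ → κ → ℝ) (k : ℕ) : ℤ → ℤ → ℝ :=
  encR L fun lab y x => cu e (b (k - L) x y) lab

/-- the family of `C` on the fine scales -/
def gC (L : ℕ) (e : κ → ℤ) (C : ℕ → ℤ → ℤ → κ → ℝ) (k : ℕ) : ℤ → ℤ → ℝ :=
  encR L fun lab z x => cu e (C (k - L) z x) lab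

/-- **The node sum as the left side of `H619.stage`.** -/
theorem tri_nf3 (he : Function.Injective e) (hm : ∀ i, e i ∈ lbs L) (N : ℕ)
    (s : ℕ → Finset Pt) (A : ℕ → ℤ → ℤ → ℝ) (b C : ℕ → ℤ → ℤ → κ → ℝ) :
    ∑ k ∈ Icc 1 N, ∑ m ∈ s k, |nf3 (A k) (b k) (C k) k m| =
      (4 ^ L : ℝ)⁻¹ * ∑ k ∈ Icc 1 (N + L), (2 ^ k : ℝ)⁻¹ * ∑ m ∈ sL L s k,
        |tri k m (gA L A k) (gB L e b k) (gC L e C k)| := by
  have e0 : ∑ k ∈ Icc 1 (N + L), (2 ^ k : ℝ)⁻¹ * ∑ m ∈ sL L s k,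
      |tri k m (gA L A k) (gB L e b k) (gC L e C k)| =
      ∑ k ∈ Icc 1 (N + L), ∑ m ∈ sL L s k,
        (2 ^ k : ℝ)⁻¹ * |tri k m (gA L A k) (gB L e b k) (gC L e C k)| :=
    sum_congr rfl fun k _ => mul_sum ..
  rw [e0, sum_sL L N s fun k m => (2 ^ k : ℝ)⁻¹ * |tri k m (gA L A k) (gB L e b k) (gC L e C k)|,
    mul_sum]
  refine sum_congr rfl fun k hk => ?_
  rw [mul_sum]
  refine sum_congr rfl fun m _ => ?_
  have h := nf3_tri he hm (mem_Icc.1 hk).1 (A k) (b k) (C k) m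
  rw [h, abs_mul, abs_mul, abs_of_nonneg (by positivity : (0 : ℝ) ≤ (4 ^ L)⁻¹),
    abs_of_nonneg (by positivity : (0 : ℝ) ≤ (2 ^ (k + L))⁻¹)]
  unfold gA gB gC
  rw [Nat.add_sub_cancel]

/-- **The node sum as `H609.UN`.** -/
theorem UN_nf3 (he : Function.Injective e) (hm : ∀ i, e i ∈ lbs L) (N : ℕ)
    (s : ℕ → Finset Pt) (A : ℕ → ℤ → ℤ → ℝ) (b C : ℕ → ℤ → ℤ → κ → ℝ) (cA cB cC : ℝ) :
    ∑ k ∈ Icc 1 N, ∑ m ∈ s k, |nf3 (A k) (b k) (C k) k m| =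
      (4 ^ L : ℝ)⁻¹ * UN (N + L) (sL L s) cA cB cC (fun k m => bl k (gA L A k) m.1 m.2.1)
        (fun k m => bl k (gB L e b k) m.2.1 m.2.2)
        (fun k m => (bl k (gC L e C k) m.1 m.2.2)ᵀ) 0 0 0 := by
  rw [tri_nf3 he hm N s A b C]
  congr 1
  unfold H609.UN
  refine sum_congr rfl fun k hk => ?_
  rw [mul_sum]
  refine sum_congr rfl fun m _ => ?_
  rw [PL.H804.tri_eq' (mem_Icc.1 hk).1, abs_mul,
    abs_of_nonneg (by positivity : (0 : ℝ) ≤ (2 ^ k)⁻¹)]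
  rfl

end lab

/-! ### The stack -/

/-- the form with the stacked slot `(D, C)`, `b` in the second place -/
theorem nf3_inr (A : ℤ → ℤ → ℝ) (b C D : ℤ → ℤ → κ → ℝ) (k : ℕ) (m : Pt) :
    nf3 A (fun x y => Sum.elim (0 : κ → ℝ) (b x y)) (fun z x => Sum.elim (D z x) (C z x)) k m =
      nf3 A b C k m := by
  unfold H677.nf3
  congr 1
  refine sum_congr rfl fun z _ => sum_congr rfl fun x _ => sum_congr rfl fun y _ => ?_
  congr 2
  rw [sumElim_dotProduct_sumElim, zero_dotProduct, zero_add]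

/-- the form with the stacked slot `(C, D)`, `b` in the first place -/
theorem nf3_inl (A : ℤ → ℤ → ℝ) (b C D : ℤ → ℤ → κ → ℝ) (k : ℕ) (m : Pt) :
    nf3 A (fun x y => Sum.elim (b x y) (0 : κ → ℝ)) (fun z x => Sum.elim (C z x) (D z x)) k m =
      nf3 A b C k m := by
  unfold H677.nf3
  congr 1
  refine sum_congr rfl fun z _ => sum_congr rfl fun x _ => sum_congr rfl fun y _ => ?_
  congr 2
  rw [sumElim_dotProduct_sumElim, zero_dotProduct, add_zero]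

/-- additivity in the slot `C`, absolute values -/
theorem abs_nf3_addC (A : ℤ → ℤ → ℝ) (b C C' : ℤ → ℤ → κ → ℝ) (k : ℕ) (m : Pt) :
    |nf3 A b (fun z x => C z x + C' z x) k m| ≤ |nf3 A b C k m| + |nf3 A b C' k m| := by
  rw [H677.nf3_addC]
  exact abs_add_le _ _

/-! ### The sums of one grid over the scales -/

/-- the family `A` on the grid `s`, cut to the root `M` -/
def shA (N : ℕ) (M s : Pt) (A : ℕ → ℤ → ℤ → ℝ) (k : ℕ) : ℤ → ℤ → ℝ :=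
  sft N M.2.2 M.2.1 s.2.2 s.2.1 (A k)

/-- the family `b` on the grid `s`, cut to the root `M` -/
def shB (N : ℕ) (M s : Pt) (b : ℕ → ℤ → ℤ → κ → ℝ) (k : ℕ) : ℤ → ℤ → κ → ℝ :=
  sft N M.1 M.2.1 s.1 s.2.1 (b k)

/-- the family `C` on the grid `s`, cut to the root `M` -/
def shC (N : ℕ) (M s : Pt) (C : ℕ → ℤ → ℤ → κ → ℝ) (k : ℕ) : ℤ → ℤ → κ → ℝ :=
  sft N M.2.2 M.1 s.2.2 s.1 (C k)

/-- the slot at the time `k - 1` on the function of the time `k` -/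
def slt (R : ℕ → ℤ → ℤ → Matrix κ κ ℝ) (C : ℕ → ℤ → ℤ → κ → ℝ) (k : ℕ) (z x : ℤ) : κ → ℝ :=
  R (k - 1) z x *ᵥ C k z x

/-- the nodes of the plane `j` of the grid `s` in the root `M - e` -/
def sG (N : ℕ) (M : Pt) (c : ℤ) (s : Pt) (j : ℤ) (e : Pt) (k : ℕ) : Finset Pt :=
  bx3 N (rv (M - e)) k (ix k (ys c s) - j)

theorem sG_sub (N : ℕ) (M : Pt) (c : ℤ) (s : Pt) (j : ℤ) (e : Pt) :
    ∀ k ∈ Icc 1 N, sG N M c s j e k ⊆ bx3 N (rv (M - e)) k (ix k (ys c s) - j) :=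
  fun _ _ => Subset.rfl

/-- **The node sums of `H795.abel_grid` on one grid, all scales, in forms.** -/
theorem sum_TS (N : ℕ) (M : Pt) (c : ℤ) (s : Pt) (A : ℕ → ℤ → ℤ → ℝ)
    (b C : ℕ → ℤ → ℤ → κ → ℝ) (R : ℕ → ℤ → ℤ → Matrix κ κ ℝ) :
    ∑ k ∈ range N, TS N M c (k + 1) s (GA A b C R k (k + 1)) =
      ∑ j ∈ Icc (0 : ℤ) 2, ∑ e ∈ E8, ∑ k ∈ Icc 1 N, ∑ m ∈ sG N M c s j e k,
        |nf3 (shA N M s A k) (shB N M s b k) (shC N M s (slt R C) k) k m| := by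
  have e2 : ∀ f : ℕ → ℝ, ∑ k ∈ Icc 1 N, f k = ∑ j ∈ range N, f (j + 1) := by
    intro f
    rw [range_eq_Ico, sum_Ico_add' f 0 N 1]
    rfl
  simp only [e2]
  simp only [TS_GA]
  rw [sum_comm]
  refine sum_congr rfl fun j _ => ?_
  rw [sum_comm]
  refine sum_congr rfl fun e _ => sum_congr rfl fun k _ => ?_
  rfl

/-- **The same in the letters of `H619.stage`.** -/
theorem sum_TS_tri {L : ℕ} {e : κ → ℤ} (he : Function.Injective e) (hm : ∀ i, e i ∈ lbs L)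
    (N : ℕ) (M : Pt) (c : ℤ) (s : Pt) (A : ℕ → ℤ → ℤ → ℝ)
    (b C : ℕ → ℤ → ℤ → κ → ℝ) (R : ℕ → ℤ → ℤ → Matrix κ κ ℝ) :
    ∑ k ∈ range N, TS N M c (k + 1) s (GA A b C R k (k + 1)) =
      (4 ^ L : ℝ)⁻¹ * ∑ j ∈ Icc (0 : ℤ) 2, ∑ q ∈ E8, ∑ k ∈ Icc 1 (N + L),
        (2 ^ k : ℝ)⁻¹ * ∑ m ∈ sL L (sG N M c s j q) k,
          |tri k m (gA L (shA N M s A) k) (gB L e (shB N M s b) k)
            (gC L e (shC N M s (slt R C)) k)| := by
  rw [sum_TS, mul_sum]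
  refine sum_congr rfl fun j _ => ?_
  rw [mul_sum]
  refine sum_congr rfl fun q _ => ?_
  exact tri_nf3 he hm N _ _ _ _

/-- **The same in the letters of `H609.stageN`.** -/
theorem sum_TS_UN {L : ℕ} {e : κ → ℤ} (he : Function.Injective e) (hm : ∀ i, e i ∈ lbs L)
    (N : ℕ) (M : Pt) (c : ℤ) (s : Pt) (A : ℕ → ℤ → ℤ → ℝ)
    (b C : ℕ → ℤ → ℤ → κ → ℝ) (R : ℕ → ℤ → ℤ → Matrix κ κ ℝ) (cA cB cC : ℝ) :
    ∑ k ∈ range N, TS N M c (k + 1) s (GA A b C R k (k + 1)) =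
      (4 ^ L : ℝ)⁻¹ * ∑ j ∈ Icc (0 : ℤ) 2, ∑ q ∈ E8,
        UN (N + L) (sL L (sG N M c s j q)) cA cB cC
          (fun k m => bl k (gA L (shA N M s A) k) m.1 m.2.1)
          (fun k m => bl k (gB L e (shB N M s b) k) m.2.1 m.2.2)
          (fun k m => (bl k (gC L e (shC N M s (slt R C)) k) m.1 m.2.2)ᵀ) 0 0 0 := by
  rw [sum_TS, mul_sum]
  refine sum_congr rfl fun j _ => ?_
  rw [mul_sum]
  refine sum_congr rfl fun q _ => ?_
  exact UN_nf3 he hm N _ _ _ _ cA cB cC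

end

end Vale.Agent.P141.H747
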