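import Vale.Agent.P141.H747.GridF
import Vale.Agent.P141.H205.SUse

/-!
# P141, line (A): the caps of the families on the shifted grids, as hypotheses of the stage sums

* `capS_sft` : a function with the cap `c` on all standard squares of scale `k`, translated and cut
  to the root, has the cap `4 c` on all squares of scale `k` of the grid;
* `psdA`, `psdB`, `psdC` : a cap `CapS` gives the matrix cap of the labelled block;
* `capS_stack` : the cap of a stacked slot `(ε C ; Q C)`, `Q` constant on the cell;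
* `fam_psdA`, `fam_psdB`, `fam_psdC` : the hypotheses `capA`, `capB`, `capC` of `H581.stageX`.
-/

namespace Vale.Agent.P141.H747

open Finset Matrix
open Vale.Agent.P075 (gramC gramR)
open Vale.Agent.P141.PL (Pt iv hs ix mem_iv)
open Vale.Agent.P141.PL.H804 (bx3 bl Cap cap_one gramC_transpose)
open Vale.Agent.P141.H958 (dup encR lbs CapL CapR cap_dup cap_encR)
open Vale.Agent.P141.H338 (cu)
open Vale.Agent.P141.H205 (CapS)
open Vale.Agent.P141.H210 (two sum_cell sum_cell_le sum_two)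
open Vale.Agent.P141.H103 (un)

noncomputable section

open scoped Classical

variable {κ : Type*} [Fintype κ]

/-! ### Translation -/

/-- the cap of the function cut to the root -/
theorem capS_rst {N k : ℕ} (hk : k ≤ N) {c : ℝ} (hc : 0 ≤ c) {F : ℤ → ℤ → κ → ℝ} {n m : ℤ}
    (h : CapS c k k F n m) (R S : ℤ) :
    CapS c k k (fun x y => if ix N x = R ∧ ix N y = S then F x y else 0) n m := by
  by_cases hr : ix (N - k) n = R ∧ ix (N - k) m = S
  · refine H205.capS_congr (fun x hx y hy => ?_) h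
    rw [if_pos]
    rw [H210.ix_root hk hx, H210.ix_root hk hy]
    exact hr
  · intro w
    refine le_trans (le_of_eq (sum_eq_zero fun x hx => sum_eq_zero fun l _ => ?_)) ?_
    · have h0 : ∀ y ∈ iv k m, w y * (if ix N x = R ∧ ix N y = S then F x y else 0) l = 0 := by
        intro y hy
        rw [if_neg]
        · simp
        · rw [H210.ix_root hk hx, H210.ix_root hk hy]
          exact hr
      rw [sum_eq_zero h0]
      norm_num
    · exact mul_nonneg (mul_nonneg hc (by positivity)) (sum_nonneg fun _ _ => sq_nonneg _)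

/-- **The cap on the shifted grid.** -/
theorem capS_sft {N k : ℕ} (hk : k ≤ N) {c : ℝ} (hc : 0 ≤ c) {F : ℤ → ℤ → κ → ℝ}
    (h : ∀ n m, CapS c k k F n m) (R S a b n m : ℤ) :
    CapS (4 * c) k k (sft N R S a b F) n m := by
  intro w
  set H : ℤ → ℤ → κ → ℝ := fun x y => if ix N x = R ∧ ix N y = S then F x y else 0 with hH
  have hcap : ∀ n m, CapS c k k H n m := fun n m => capS_rst hk hc (h n m) R S
  set W : ℤ → ℝ := fun y => if y - b ∈ iv k m then w (y - b) else 0 with hW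
  have e1 : ∀ x l, ∑ y ∈ iv k m, w y * sft N R S a b F x y l =
      ∑ j ∈ two (m + ix k b), ∑ y ∈ iv k j, W y * H (x + a) y l := by
    intro x l
    have h1 := sum_cell k m b fun y => w (y - b) * H (x + a) y l
    have h2 : ∑ y ∈ iv k m, w y * sft N R S a b F x y l =
        ∑ y ∈ iv k m, (fun y => w (y - b) * H (x + a) y l) (y + b) := by
      refine sum_congr rfl fun y _ => ?_
      beta_reduce
      rw [add_sub_cancel_right]
      rfl
    rw [h2, h1]
    refine sum_congr rfl fun j _ => sum_congr rfl fun y _ => ?_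
    rw [hW]
    beta_reduce
    split_ifs
    · rfl
    · rw [zero_mul]
  have e2 : ∀ x l, (∑ y ∈ iv k m, w y * sft N R S a b F x y l) ^ 2 ≤
      2 * ∑ j ∈ two (m + ix k b), (∑ y ∈ iv k j, W y * H (x + a) y l) ^ 2 := by
    intro x l
    rw [e1, sum_two, sum_two]
    nlinarith [sq_nonneg ((∑ y ∈ iv k (m + ix k b), W y * H (x + a) y l) -
      ∑ y ∈ iv k (m + ix k b + 1), W y * H (x + a) y l)]
  have e3 : ∑ j ∈ two (m + ix k b), ∑ y ∈ iv k j, W y ^ 2 = ∑ y ∈ iv k m, w y ^ 2 := by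
    have h1 := sum_cell k m b fun y => w (y - b) ^ 2
    simp only [add_sub_cancel_right] at h1
    rw [h1]
    refine sum_congr rfl fun j _ => sum_congr rfl fun y _ => ?_
    rw [hW]
    beta_reduce
    split_ifs
    · rfl
    · norm_num
  set g : ℤ → ℝ := fun x => ∑ l, 2 * ∑ j ∈ two (m + ix k b),
    (∑ y ∈ iv k j, W y * H x y l) ^ 2 with hg
  have g0 : ∀ x, 0 ≤ g x := fun x => sum_nonneg fun l _ =>
    mul_nonneg (by norm_num) (sum_nonneg fun _ _ => sq_nonneg _)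
  have s1 : ∑ x ∈ iv k n, ∑ l, (∑ y ∈ iv k m, w y * sft N R S a b F x y l) ^ 2 ≤
      ∑ x ∈ iv k n, g (x + a) := sum_le_sum fun x _ => sum_le_sum fun l _ => e2 x l
  have s2 := sum_cell_le k n a g0
  have s3 : ∀ i, ∑ x ∈ iv k i, g x ≤ 2 * (c * (2 ^ k * 2 ^ k) * ∑ y ∈ iv k m, w y ^ 2) := by
    intro i
    have t1 : ∑ x ∈ iv k i, g x = 2 * ∑ j ∈ two (m + ix k b), ∑ x ∈ iv k i, ∑ l,
        (∑ y ∈ iv k j, W y * H x y l) ^ 2 := by
      rw [hg]
      beta_reduce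
      simp only [← mul_sum]
      congr 1
      rw [sum_comm (s := two (m + ix k b))]
      refine sum_congr rfl fun x _ => ?_
      rw [sum_comm]
    rw [t1]
    refine mul_le_mul_of_nonneg_left ?_ (by norm_num)
    refine (sum_le_sum fun j _ => hcap i j W).trans (le_of_eq ?_)
    rw [← mul_sum, e3]
  have s4 : ∑ i ∈ two (n + ix k a), ∑ x ∈ iv k i, g x ≤
      2 * (2 * (c * (2 ^ k * 2 ^ k) * ∑ y ∈ iv k m, w y ^ 2)) := by
    rw [sum_two]
    have a1 := s3 (n + ix k a)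
    have a2 := s3 (n + ix k a + 1)
    linarith
  refine (s1.trans (s2.trans s4)).trans (le_of_eq ?_)
  ring

theorem sft_swap {E : Type*} [Zero E] (N : ℕ) (R S a b : ℤ) (f : ℤ → ℤ → E) (x y : ℤ) :
    sft N R S a b f y x = sft N S R b a (fun x y => f y x) x y := by
  unfold sft
  simp only [and_comm]

/-! ### The matrix caps -/

theorem cap_of_rows {k : ℕ} {n m : ℤ} {c : ℝ} {A : ℤ → ℤ → ℝ}
    (h : ∀ v : ℤ → ℝ, ∑ x ∈ iv k n, (∑ y ∈ iv k m, v y * A x y) ^ 2 ≤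
      (c * 2 ^ k) ^ 2 * ∑ y ∈ iv k m, v y ^ 2) : Cap k n m c A := by
  intro u v
  have e : ∑ x ∈ iv k n, ∑ y ∈ iv k m, u x * v y * A x y =
      ∑ x ∈ iv k n, u x * ∑ y ∈ iv k m, v y * A x y := by
    refine sum_congr rfl fun x _ => ?_
    rw [mul_sum]
    exact sum_congr rfl fun y _ => by ring
  rw [e]
  refine (sum_mul_sq_le_sq_mul_sq _ _ _).trans ?_
  refine (mul_le_mul_of_nonneg_left (h v) (sum_nonneg fun _ _ => sq_nonneg _)).trans (le_of_eq ?_)
  ring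

theorem cap_of_S {k : ℕ} {n m : ℤ} {c : ℝ} {A : ℤ → ℤ → ℝ} (h : CapS (c ^ 2) k k (un A) n m) :
    Cap k n m c A := by
  refine cap_of_rows fun v => ?_
  have h1 := h v
  simp only [Fintype.univ_punit, sum_singleton, H103.un] at h1
  refine h1.trans (le_of_eq ?_)
  ring

section lab

variable {L : ℕ} {e : κ → ℤ}

theorem capL_of_S (he : Function.Injective e) (hm : ∀ i, e i ∈ lbs L) {k : ℕ} {n m : ℤ} {c : ℝ}
    {b : ℤ → ℤ → κ → ℝ} (h : CapS (c ^ 2) k k b n m) :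
    CapL L k n m c fun lab x y => cu e (b x y) lab := by
  intro u v
  have e1 : ∀ x lab, ∑ y ∈ iv k m, v y * cu e (b x y) lab =
      cu e (fun i => ∑ y ∈ iv k m, v y * b x y i) lab := by
    intro x lab
    rw [H338.cu_sum (iv k m) (fun y i => v y * b x y i) lab]
    refine sum_congr rfl fun y _ => ?_
    rw [H338.cu_smul]
  have e2 : ∑ x ∈ iv k n, ∑ lab ∈ lbs L, ∑ y ∈ iv k m, u lab x * v y * cu e (b x y) lab =
      ∑ p ∈ iv k n ×ˢ lbs L, u p.2 p.1 * ∑ y ∈ iv k m, v y * cu e (b p.1 y) p.2 := by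
    rw [sum_product]
    refine sum_congr rfl fun x _ => sum_congr rfl fun lab _ => ?_
    rw [mul_sum]
    exact sum_congr rfl fun y _ => by ring
  rw [e2]
  refine (sum_mul_sq_le_sq_mul_sq _ _ _).trans ?_
  rw [sum_product, sum_product]
  have e3 : ∑ x ∈ iv k n, ∑ lab ∈ lbs L, (∑ y ∈ iv k m, v y * cu e (b x y) lab) ^ 2 =
      ∑ x ∈ iv k n, ∑ i, (∑ y ∈ iv k m, v y * b x y i) ^ 2 := by
    refine sum_congr rfl fun x _ => ?_
    have h1 := H338.sum_cu_cu he hm (fun i => ∑ y ∈ iv k m, v y * b x y i)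
      fun i => ∑ y ∈ iv k m, v y * b x y i
    have h2 : ∀ i, (∑ y ∈ iv k m, v y * b x y i) ^ 2 =
      (∑ y ∈ iv k m, v y * b x y i) * ∑ y ∈ iv k m, v y * b x y i := fun i => sq _
    simp only [h2]
    rw [← h1]
    refine sum_congr rfl fun lab _ => ?_
    rw [e1, sq]
  rw [e3]
  refine (mul_le_mul_of_nonneg_left (h v) (sum_nonneg fun _ _ => sum_nonneg fun _ _ =>
    sq_nonneg _)).trans (le_of_eq ?_)
  ring

/-- **The matrix cap of `A`.** -/
theorem psdA {k : ℕ} {c : ℝ} (hc : 0 < c) {A : ℤ → ℤ → ℝ} {n m : ℤ}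
    (h : CapS (c ^ 2) k k (un A) n m) :
    (1 - gramC ((c ^ 2)⁻¹ * (4 ^ (k + L))⁻¹) (bl (k + L) (dup L A) n m)).PosSemidef :=
  cap_one hc (cap_dup (cap_of_S h))

/-- **The matrix cap of `b`.** -/
theorem psdB (he : Function.Injective e) (hm : ∀ i, e i ∈ lbs L) {k : ℕ} {c : ℝ} (hc : 0 < c)
    {b : ℤ → ℤ → κ → ℝ} {n m : ℤ} (h : CapS (c ^ 2) k k b n m) :
    (1 - gramC ((c ^ 2)⁻¹ * (4 ^ (k + L))⁻¹)
      (bl (k + L) (encR L fun lab y x => cu e (b x y) lab) m n)).PosSemidef :=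
  cap_one hc (cap_encR (capL_of_S he hm h))

/-- **The matrix cap of `C`** (transposed block, cap in the direction `z → x`). -/
theorem psdC (he : Function.Injective e) (hm : ∀ i, e i ∈ lbs L) {k : ℕ} {c : ℝ} (hc : 0 < c)
    {C : ℤ → ℤ → κ → ℝ} {n m : ℤ} (h : CapS (c ^ 2) k k (fun x z => C z x) n m) :
    (1 - gramC ((c ^ 2)⁻¹ * (4 ^ (k + L))⁻¹)
      (bl (k + L) (encR L fun lab z x => cu e (C z x) lab) m n)ᵀ).PosSemidef := by
  have h1 := H609.cap_oneR hc (cap_encR (capL_of_S he hm h))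
  rwa [← gramC_transpose] at h1

end lab

/-! ### The stack -/

/-- **The cap of the stack**, the matrix constant on the cell. -/
theorem capS_stack {k : ℕ} {n m : ℤ} {c ε q : ℝ} {C : ℤ → ℤ → κ → ℝ} {Q : ℤ → Matrix κ κ ℝ}
    (hQ : ∀ x ∈ iv k n, ∀ a : κ → ℝ, (Q x *ᵥ a) ⬝ᵥ (Q x *ᵥ a) ≤ q * (a ⬝ᵥ a)) (hq : 0 ≤ q)
    (h : CapS c k k (fun x z => C z x) n m) :
    CapS ((ε ^ 2 + q) * c) k k
      (fun x z => Sum.elim (ε • C z x) (Q x *ᵥ C z x) : ℤ → ℤ → κ ⊕ κ → ℝ) n m := by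
  intro w
  have h1 : ∀ x ∈ iv k n, ∑ l : κ ⊕ κ, (∑ z ∈ iv k m, w z *
      (Sum.elim (ε • C z x) (Q x *ᵥ C z x) : κ ⊕ κ → ℝ) l) ^ 2 ≤
      (ε ^ 2 + q) * ∑ l, (∑ z ∈ iv k m, w z * C z x l) ^ 2 := by
    intro x hx
    set a : κ → ℝ := fun l => ∑ z ∈ iv k m, w z * C z x l with ha
    rw [Fintype.sum_sum_type]
    have e1 : ∑ l : κ, (∑ z ∈ iv k m, w z *
        (Sum.elim (ε • C z x) (Q x *ᵥ C z x) : κ ⊕ κ → ℝ) (Sum.inl l)) ^ 2 =
        ε ^ 2 * ∑ l, a l ^ 2 := by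
      rw [mul_sum]
      refine sum_congr rfl fun l _ => ?_
      have : ∑ z ∈ iv k m, w z *
          (Sum.elim (ε • C z x) (Q x *ᵥ C z x) : κ ⊕ κ → ℝ) (Sum.inl l) = ε * a l := by
        rw [ha]
        beta_reduce
        rw [mul_sum]
        refine sum_congr rfl fun z _ => ?_
        rw [Sum.elim_inl, Pi.smul_apply, smul_eq_mul]
        ring
      rw [this]
      ring
    have e2 : ∑ l : κ, (∑ z ∈ iv k m, w z *
        (Sum.elim (ε • C z x) (Q x *ᵥ C z x) : κ ⊕ κ → ℝ) (Sum.inr l)) ^ 2 =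
        (Q x *ᵥ a) ⬝ᵥ (Q x *ᵥ a) := by
      rw [dotProduct]
      refine sum_congr rfl fun l _ => ?_
      have : ∑ z ∈ iv k m, w z *
          (Sum.elim (ε • C z x) (Q x *ᵥ C z x) : κ ⊕ κ → ℝ) (Sum.inr l) = (Q x *ᵥ a) l := by
        simp only [Sum.elim_inr, mulVec, dotProduct, ha, mul_sum]
        rw [sum_comm]
        refine sum_congr rfl fun i _ => sum_congr rfl fun z _ => ?_
        ring
      rw [this, sq]
    rw [e1, e2]
    have h2 := hQ x hx a
    have e3 : a ⬝ᵥ a = ∑ l, a l ^ 2 := by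
      rw [dotProduct]
      exact sum_congr rfl fun l _ => (sq _).symm
    rw [e3] at h2
    linarith
  refine (sum_le_sum h1).trans ?_
  rw [← mul_sum]
  refine (mul_le_mul_of_nonneg_left (h w) (by positivity)).trans (le_of_eq ?_)
  ring

/-! ### Families -/

section fam

variable {L N : ℕ} {s : ℕ → Finset Pt} {e : κ → ℤ}

theorem mem_sL {k : ℕ} {m : Pt} (h : m ∈ sL L s k) : ∃ j, k = j + L ∧ 1 ≤ j ∧ m ∈ s j := by
  unfold sL at h
  split_ifs at h with hk
  · exact ⟨k - L, by omega, by omega, h⟩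
  · exact absurd h (notMem_empty m)

/-- **The hypothesis `capA` of the stage sums.** -/
theorem fam_psdA {c : ℝ} (hc : 0 < c) {A : ℕ → ℤ → ℤ → ℝ}
    (h : ∀ k ∈ Icc 1 N, ∀ m ∈ s k, CapS (c ^ 2) k k (un (A k)) m.1 m.2.1) :
    ∀ k ∈ Icc 1 (N + L), ∀ m ∈ sL L s k,
      (1 - gramC ((c ^ 2)⁻¹ * (4 ^ k)⁻¹) (bl k (gA L A k) m.1 m.2.1)).PosSemidef := by
  intro k hk m hm
  obtain ⟨j, rfl, hj, hmj⟩ := mem_sL hm
  rw [mem_Icc] at hk
  unfold gA
  rw [Nat.add_sub_cancel]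
  exact psdA hc (h j (by rw [mem_Icc]; omega) m hmj)

/-- **The hypothesis `capB` of the stage sums.** -/
theorem fam_psdB (he : Function.Injective e) (hm : ∀ i, e i ∈ lbs L) {c : ℝ} (hc : 0 < c)
    {b : ℕ → ℤ → ℤ → κ → ℝ}
    (h : ∀ k ∈ Icc 1 N, ∀ m ∈ s k, CapS (c ^ 2) k k (b k) m.2.2 m.2.1) :
    ∀ k ∈ Icc 1 (N + L), ∀ m ∈ sL L s k,
      (1 - gramC ((c ^ 2)⁻¹ * (4 ^ k)⁻¹) (bl k (gB L e b k) m.2.1 m.2.2)).PosSemidef := by
  intro k hk m hmm
  obtain ⟨j, rfl, hj, hmj⟩ := mem_sL hmm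
  rw [mem_Icc] at hk
  unfold gB
  rw [Nat.add_sub_cancel]
  exact psdB he hm hc (h j (by rw [mem_Icc]; omega) m hmj)

/-- **The hypothesis `capC` of the stage sums.** -/
theorem fam_psdC (he : Function.Injective e) (hm : ∀ i, e i ∈ lbs L) {c : ℝ} (hc : 0 < c)
    {C : ℕ → ℤ → ℤ → κ → ℝ}
    (h : ∀ k ∈ Icc 1 N, ∀ m ∈ s k, CapS (c ^ 2) k k (fun x z => C k z x) m.2.2 m.1) :
    ∀ k ∈ Icc 1 (N + L), ∀ m ∈ sL L s k,
      (1 - gramC ((c ^ 2)⁻¹ * (4 ^ k)⁻¹) (bl k (gC L e C k) m.1 m.2.2)ᵀ).PosSemidef := by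
  intro k hk m hmm
  obtain ⟨j, rfl, hj, hmj⟩ := mem_sL hmm
  rw [mem_Icc] at hk
  unfold gC
  rw [Nat.add_sub_cancel]
  exact psdC he hm hc (h j (by rw [mem_Icc]; omega) m hmj)

end fam

end

end Vale.Agent.P141.H747
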