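import Vale.Agent.P141.H747.FormsPM
import Vale.Agent.P141.H747.CapG
import Vale.Agent.P141.H581.StageX

/-!
# P141, line (A): the main part of the flow part as a stage sum over `x0`

One grid `s`, one root `t`, one plane `j`, one root `q` of the grid.

* `SB`, `SC` : `b` and the stacked slot `(ε C ; R C)` on the grid; `GAm`, `GBm`, `GCm` : the node
  matrices; `one_UX` : the sum over `x0` and the nodes as `H581.UX`; `PM_UX` : `H677.Sk.PM` from
  the bounds of all these sums;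
* `capAm`, `capBm`, `capCm` : the matrix caps from the caps of the families on the standard squares.
-/

namespace Vale.Agent.P141.H747

open Finset Matrix
open Vale.Agent.P075 (gramC gramR)
open Vale.Agent.P141.PL (Pt iv hs ix mem_iv cb mem_cb cx tri)
open Vale.Agent.P141.PL.H804 (bx3 bl)
open Vale.Agent.P141.H958 (dup encR lbs)
open Vale.Agent.P141.H677 (rv rv_rv nf3 GA RT rt)
open Vale.Agent.P141.H677.Sk (FamA FamV sl sl' GS GR PM PS)
open Vale.Agent.P141.H795 (nd tr TS E8 ys)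
open Vale.Agent.P141.H609 (UN NM)
open Vale.Agent.P141.H581 (UX)
open Vale.Agent.P141.H205 (CapS)
open Vale.Agent.P141.H103 (un)

noncomputable section

open scoped Classical

variable {ι : Type} [Fintype ι] [DecidableEq ι]

section one

variable (Al : ℕ → Pt → Prop) (o : ℤ) (K : ℕ) (M : Pt) (sg : ℕ → Pt → ℝ) (l : ℝ)
  (u : ℤ → ℤ → ι → ℝ) (A : FamA) (b C : FamV ι)

/-- `b` on the grid `s`, second place of the stack -/
def SB (s : Pt) (x0 : ℤ) (k : ℕ) (x y : ℤ) : ι ⊕ ι → ℝ :=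
  Sum.elim (0 : ι → ℝ) (shB K M s (b x0) k x y)

/-- the stacked slot `(ε C ; R C)` on the grid `s` -/
def SC (ε : ℝ) (s : Pt) (x0 : ℤ) (k : ℕ) (z x : ℤ) : ι ⊕ ι → ℝ :=
  Sum.elim (ε • shC K M s (C x0) k z x) (RC Al o K M sg l u C s x0 k z x)

/-- the matrix of `A`, gap `x2` on the right -/
def GAm (L : ℕ) (s : Pt) (x0 : ℤ) : NM := fun k m =>
  bl k (gA L (shA K M s (A x0)) k) m.1 m.2.1

/-- the matrix of `b` -/
def GBm (L : ℕ) (e : ι ⊕ ι → ℤ) (s : Pt) (x0 : ℤ) : NM := fun k m =>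
  bl k (gB L e (SB K M b s x0) k) m.2.1 m.2.2

/-- the matrix of the stacked slot -/
def GCm (L : ℕ) (e : ι ⊕ ι → ℤ) (ε : ℝ) (s : Pt) (x0 : ℤ) : NM := fun k m =>
  (bl k (gC L e (SC Al o K M sg l u C ε s x0) k) m.1 m.2.2)ᵀ

/-- **One grid, one root, one plane: the sum over `x0` and the nodes as `H581.UX`.** -/
theorem one_UX {L : ℕ} {e : ι ⊕ ι → ℤ} (he : Function.Injective e) (hm : ∀ i, e i ∈ lbs L)
    (ε cA cB cC : ℝ) (s : Pt) (t j : ℤ) (q : Pt) :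
    ∑ x0 ∈ iv K t, ∑ k ∈ Icc 1 K, ∑ m ∈ sG K M (-x0) s j q k,
      |nf3 (shA K M s (A x0) k) (shB K M s (b x0) k) (RC Al o K M sg l u C s x0 k) k m| =
    (4 ^ L : ℝ)⁻¹ * UX (iv K t) (K + L) (fun x0 => sL L (sG K M (-x0) s j q)) cA cB cC
      (GAm K M A L s) (GBm K M b L e s) (GCm Al o K M sg l u C L e ε s) 0 0 0 := by
  unfold H581.UX
  rw [mul_sum]
  refine sum_congr rfl fun x0 _ => ?_
  have h := UN_nf3 he hm K (sG K M (-x0) s j q) (shA K M s (A x0)) (SB K M b s x0)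
    (SC Al o K M sg l u C ε s x0) cA cB cC
  refine Eq.trans ?_ h
  refine sum_congr rfl fun k _ => sum_congr rfl fun m _ => ?_
  rw [nf3_RC Al o K M sg l u A b C s x0 (fun z x => ε • shC K M s (C x0) k z x) k m]
  rfl

/-- **The main part from the stage sums.** -/
theorem PM_UX {L : ℕ} {e : ι ⊕ ι → ℤ} (he : Function.Injective e) (hm : ∀ i, e i ∈ lbs L)
    {ε cA cB cC B : ℝ}
    (h : ∀ s ∈ cb K 0, ∀ t ∈ rt M, ∀ j ∈ Icc (0 : ℤ) 2, ∀ q ∈ E8,
      UX (iv K t) (K + L) (fun x0 => sL L (sG K M (-x0) s j q)) cA cB cC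
        (GAm K M A L s) (GBm K M b L e s) (GCm Al o K M sg l u C L e ε s) 0 0 0 ≤ 4 ^ L * B) :
    PM ι Al o K M sg l u A b C ≤ 72 * B := by
  refine PM_le Al o K M sg l u A b C fun s hs t ht j hj q hq => ?_
  rw [one_UX Al o K M sg l u A b C he hm ε cA cB cC s t j q]
  have h4 : (0 : ℝ) < 4 ^ L := by positivity
  rw [inv_mul_le_iff₀ h4]
  exact h s hs t ht j hj q hq

end one

/-! ### The caps -/

section caps

variable {Al : ℕ → Pt → Prop} {o : ℤ} {K : ℕ} {M : Pt} {sg : ℕ → Pt → ℝ} {l : ℝ}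
  {u : ℤ → ℤ → ι → ℝ} {A : FamA} {b C : FamV ι} {L : ℕ} {e : ι ⊕ ι → ℤ}

theorem un_sft (N : ℕ) (R S a a' : ℤ) (F : ℤ → ℤ → ℝ) :
    un (sft N R S a a' F) = sft N R S a a' (un F) := by
  funext x y i
  unfold H103.un sft
  split_ifs <;> rfl

/-- **The hypothesis `capA`**: `th` = the cap of `A` on the standard squares. -/
theorem capAm {th : ℝ} (hth : 0 < th) (s : Pt) {x0 : ℤ}
    (h : ∀ k ≤ K, ∀ n m, CapS th k k (un (A x0 k)) n m) (nd : ℕ → Finset Pt) :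
    ∀ k ∈ Icc 1 (K + L), ∀ m ∈ sL L nd k,
      (1 - gramC (((√(4 * th)) ^ 2)⁻¹ * (4 ^ k)⁻¹) (GAm K M A L s x0 k m)).PosSemidef := by
  have h4 : 0 < 4 * th := by linarith
  refine fam_psdA (Real.sqrt_pos.2 h4) fun k hk m _ => ?_
  rw [mem_Icc] at hk
  rw [Real.sq_sqrt h4.le]
  unfold shA
  rw [un_sft]
  exact capS_sft hk.2 hth.le (h k hk.2) _ _ _ _ _ _

omit [DecidableEq ι] in
/-- the cap of the second place of the stack -/
theorem capS_inr {k : ℕ} {n m : ℤ} {c : ℝ} {F : ℤ → ℤ → ι → ℝ} (h : CapS c k k F n m) :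
    CapS c k k (fun x y => Sum.elim (0 : ι → ℝ) (F x y) : ℤ → ℤ → ι ⊕ ι → ℝ) n m := by
  intro w
  refine le_trans (le_of_eq ?_) (h w)
  refine sum_congr rfl fun x _ => ?_
  rw [Fintype.sum_sum_type]
  simp

/-- **The hypothesis `capB`.** -/
theorem capBm (he : Function.Injective e) (hm : ∀ i, e i ∈ lbs L) {th : ℝ} (hth : 0 < th)
    (s : Pt) {x0 : ℤ} (h : ∀ k ≤ K, ∀ n m, CapS th k k (b x0 k) n m) (nd : ℕ → Finset Pt) :
    ∀ k ∈ Icc 1 (K + L), ∀ m ∈ sL L nd k,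
      (1 - gramC (((√(4 * th)) ^ 2)⁻¹ * (4 ^ k)⁻¹) (GBm K M b L e s x0 k m)).PosSemidef := by
  have h4 : 0 < 4 * th := by linarith
  refine fam_psdB he hm (Real.sqrt_pos.2 h4) fun k hk m _ => ?_
  rw [mem_Icc] at hk
  rw [Real.sq_sqrt h4.le]
  exact capS_inr (capS_sft hk.2 hth.le (h k hk.2) _ _ _ _ _ _)

/-- **The hypothesis `capC`**: `th` = the cap of `C` in the direction `z → x`, `q` = the square of
the cap of the averaged slot. -/
theorem capCm (he : Function.Injective e) (hm : ∀ i, e i ∈ lbs L) {th ε q : ℝ} (hth : 0 < th)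
    (hq : 0 ≤ q) (hε : 0 < ε ^ 2 + q) (s : Pt) {x0 : ℤ}
    (h : ∀ k ≤ K, ∀ n m, CapS th k k (fun x z => C x0 k z x) n m)
    (hQ : ∀ k ≤ K, ∀ n x, ∀ a : ι → ℝ, (Rg Al o K M sg l u s.2.2 s.1 x0 k n x *ᵥ a) ⬝ᵥ
      (Rg Al o K M sg l u s.2.2 s.1 x0 k n x *ᵥ a) ≤ q * (a ⬝ᵥ a)) (nd : ℕ → Finset Pt) :
    ∀ k ∈ Icc 1 (K + L), ∀ m ∈ sL L nd k,
      (1 - gramC (((√((ε ^ 2 + q) * (4 * th))) ^ 2)⁻¹ * (4 ^ k)⁻¹)
        (GCm Al o K M sg l u C L e ε s x0 k m)).PosSemidef := by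
  have h4 : 0 < (ε ^ 2 + q) * (4 * th) := by positivity
  refine fam_psdC he hm (Real.sqrt_pos.2 h4) fun k hk m _ => ?_
  rw [mem_Icc] at hk
  rw [Real.sq_sqrt h4.le]
  have h1 : CapS (4 * th) k k (fun x z => shC K M s (C x0) k z x) m.2.2 m.1 := by
    unfold shC
    have e1 : (fun x z => sft K M.2.2 M.1 s.2.2 s.1 (C x0 k) z x) =
        sft K M.1 M.2.2 s.1 s.2.2 fun x z => C x0 k z x := by
      funext x z
      exact sft_swap ..
    rw [e1]
    exact capS_sft hk.2 hth.le (h k hk.2) _ _ _ _ _ _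
  have h2 := capS_stack (ε := ε) (q := q) (Q := fun x => Rg Al o K M sg l u s.2.2 s.1 x0 k m.1 x)
    (fun x _ a => hQ k hk.2 m.1 x a) hq h1
  refine H205.capS_congr (fun x _ z hz => ?_) h2
  unfold SC RC
  rw [mem_iv.1 hz]

end caps

end

end Vale.Agent.P141.H747
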