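import Vale.Agent.P141.H747.GridF
import Vale.Agent.P141.H677.SkelTF

/-!
# P141, line (A): the main part and the shift error of the flow part as node forms

Over `H677.SkelTF` and `H747.GridF`.  `s` = the shift of the grid, everything in the coordinates of
the grid.

* `Rg` : the averaged slot, constant on the cells `n` of the grid in `x3`; `Rg_mart`;
* `PM_forms`, `PS_forms` : `H677.Sk.PM` and `H677.Sk.PS` as sums of node forms;
* `nf3_RC`, `nf3_RC'` : the same with a stacked slot;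
* `PM_le`, `PS_le` : one grid, one root, one plane at a time.
-/

namespace Vale.Agent.P141.H747

open Finset Matrix
open Vale.Agent.P141.PL (Pt iv hs ix mem_iv cb mem_cb cx tri)
open Vale.Agent.P141.PL.H804 (bx3 bl)
open Vale.Agent.P141.H677 (rv rv_rv nf3 GA RT rt)
open Vale.Agent.P141.H677.Sk (FamA FamV sl sl' GS GR PM PS)
open Vale.Agent.P141.H795 (nd tr TS E8 ys)

noncomputable section

open scoped Classical

/-! ### The slot in the coordinates of the grid -/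

theorem sft_mulVec {κ : Type*} [Fintype κ] (N : ℕ) (R S a b : ℤ) (Q : ℤ → ℤ → Matrix κ κ ℝ)
    (C : ℤ → ℤ → κ → ℝ) :
    sft N R S a b (fun z x => Q z x *ᵥ C z x) =
      fun z x => Q (z + a) (x + b) *ᵥ sft N R S a b C z x := by
  funext z x
  unfold sft
  split_ifs
  · rfl
  · rw [mulVec_zero]

variable {ι : Type} [Fintype ι] [DecidableEq ι]

section slot

variable (Al : ℕ → Pt → Prop) (o : ℤ) (K : ℕ) (M : Pt) (sg : ℕ → Pt → ℝ) (l : ℝ)
  (u : ℤ → ℤ → ι → ℝ)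

/-- the averaged slot of the grid `(h, h1)` in `(x3, x1)`: constant on the cell `n` -/
def Rg (h h1 x0 : ℤ) (k : ℕ) (n x : ℤ) : Matrix ι ι ℝ :=
  ((2 : ℝ) ^ k)⁻¹ • ∑ w ∈ iv k n, RT Al o K M sg l u 0 x0 (w + h) (x + h1)

/-- the slot error of the grid -/
def Dg (h h1 x0 : ℤ) (k : ℕ) (z x : ℤ) : Matrix ι ι ℝ :=
  RT Al o K M sg l u (k - 1) x0 (z + h) (x + h1) - Rg Al o K M sg l u h h1 x0 k (ix k z) x

variable {Al o K M sg l u}

theorem Rg_avv (h h1 x0 : ℤ) (k : ℕ) (n x : ℤ) :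
    Rg Al o K M sg l u h h1 x0 k n x =
      H43.avv k n fun w => RT Al o K M sg l u 0 x0 (w + h) (x + h1) := rfl

/-- the slot is an exact martingale in the cell of `x3` -/
theorem Rg_mart (h h1 x0 : ℤ) (k : ℕ) (n x : ℤ) :
    Rg Al o K M sg l u h h1 x0 (k + 1) n x = (1 / 2 : ℝ) •
      (Rg Al o K M sg l u h h1 x0 k (2 * n) x + Rg Al o K M sg l u h h1 x0 k (2 * n + 1) x) := by
  simp only [Rg_avv]
  exact H43.avv_half ..

theorem sl'_Rg (h h1 x0 : ℤ) (k : ℕ) (z x : ℤ) :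
    sl' Al o K M sg l u h x0 k (z + h) (x + h1) =
      Rg Al o K M sg l u h h1 x0 k (ix k z) x := by
  unfold H677.Sk.sl' Rg
  rw [add_sub_cancel_right]

end slot

/-! ### The parts as forms -/

section parts

variable (Al : ℕ → Pt → Prop) (o : ℤ) (K : ℕ) (M : Pt) (sg : ℕ → Pt → ℝ) (l : ℝ)
  (u : ℤ → ℤ → ι → ℝ) (A : FamA) (b C : FamV ι)

/-- the slot `R C` on the grid `s` -/
def RC (s : Pt) (x0 : ℤ) (k : ℕ) (z x : ℤ) : ι → ℝ :=
  Rg Al o K M sg l u s.2.2 s.1 x0 k (ix k z) x *ᵥ shC K M s (C x0) k z x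

/-- the slot `(RT - R) C` on the grid `s` -/
def DC (s : Pt) (x0 : ℤ) (k : ℕ) (z x : ℤ) : ι → ℝ :=
  Dg Al o K M sg l u s.2.2 s.1 x0 k z x *ᵥ shC K M s (C x0) k z x

theorem TS_GR (x0 : ℤ) (s : Pt) (k : ℕ) :
    TS K M (-x0) k s (GR Al o K M sg l u A b C s.2.2 x0 k) =
      ∑ j ∈ Icc (0 : ℤ) 2, ∑ e ∈ E8, ∑ m ∈ sG K M (-x0) s j e k,
        |nf3 (shA K M s (A x0) k) (shB K M s (b x0) k) (RC Al o K M sg l u C s x0 k) k m| := by
  unfold H677.Sk.GR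
  rw [TS_GA]
  refine sum_congr rfl fun j _ => sum_congr rfl fun e _ => sum_congr rfl fun m _ => ?_
  rw [sft_mulVec]
  simp only [sl'_Rg]
  rfl

theorem TS_GD (x0 : ℤ) (s : Pt) (k : ℕ) :
    TS K M (-x0) (k + 1) s (fun y => GS Al o K M sg l u A b C x0 k (k + 1) y -
      GR Al o K M sg l u A b C s.2.2 x0 (k + 1) y) =
      ∑ j ∈ Icc (0 : ℤ) 2, ∑ e ∈ E8, ∑ m ∈ sG K M (-x0) s j e (k + 1),
        |nf3 (shA K M s (A x0) (k + 1)) (shB K M s (b x0) (k + 1))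
          (DC Al o K M sg l u C s x0 (k + 1)) (k + 1) m| := by
  have e1 : (fun y => GS Al o K M sg l u A b C x0 k (k + 1) y -
      GR Al o K M sg l u A b C s.2.2 x0 (k + 1) y) = fun y : Pt =>
      A x0 (k + 1) y.2.2 y.2.1 * (b x0 (k + 1) y.1 y.2.1 ⬝ᵥ (fun z x =>
        (sl Al o K M sg l u x0 k z x - sl' Al o K M sg l u s.2.2 x0 (k + 1) z x) *ᵥ
          C x0 (k + 1) z x) y.2.2 y.1) := by
    funext y
    unfold H677.Sk.GS H677.Sk.GR H677.GA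
    beta_reduce
    rw [sub_mulVec, dotProduct_sub]
    ring
  rw [e1, TS_forms K M (-x0) (k + 1) s (A x0 (k + 1)) (b x0 (k + 1)) fun z x =>
        (sl Al o K M sg l u x0 k z x - sl' Al o K M sg l u s.2.2 x0 (k + 1) z x) *ᵥ
          C x0 (k + 1) z x]
  refine sum_congr rfl fun j _ => sum_congr rfl fun e _ => sum_congr rfl fun m _ => ?_
  rw [sft_mulVec]
  simp only [sl'_Rg]
  rfl

theorem sum_Icc_range (N : ℕ) (f : ℕ → ℝ) : ∑ k ∈ Icc 1 N, f k = ∑ j ∈ range N, f (j + 1) := by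
  rw [range_eq_Ico, sum_Ico_add' f 0 N 1]
  rfl

/-- **The main part in forms.** -/
theorem PM_forms :
    PM ι Al o K M sg l u A b C = ((8 : ℝ) ^ K)⁻¹ * ∑ s ∈ cb K 0, ∑ t ∈ rt M, ∑ x0 ∈ iv K t,
      ∑ j ∈ Icc (0 : ℤ) 2, ∑ e ∈ E8, ∑ k ∈ Icc 1 K, ∑ m ∈ sG K M (-x0) s j e k,
        |nf3 (shA K M s (A x0) k) (shB K M s (b x0) k) (RC Al o K M sg l u C s x0 k) k m| := by
  unfold H677.Sk.PM
  congr 1
  refine sum_congr rfl fun s _ => sum_congr rfl fun t _ => sum_congr rfl fun x0 _ => ?_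
  simp only [TS_GR]
  simp only [sum_Icc_range]
  rw [sum_comm]
  refine sum_congr rfl fun j _ => ?_
  rw [sum_comm]

/-- **The shift error in forms.** -/
theorem PS_forms :
    PS ι Al o K M sg l u A b C = ((8 : ℝ) ^ K)⁻¹ * ∑ s ∈ cb K 0, ∑ t ∈ rt M, ∑ x0 ∈ iv K t,
      ∑ j ∈ Icc (0 : ℤ) 2, ∑ e ∈ E8, ∑ k ∈ Icc 1 K, ∑ m ∈ sG K M (-x0) s j e k,
        |nf3 (shA K M s (A x0) k) (shB K M s (b x0) k) (DC Al o K M sg l u C s x0 k) k m| := by
  unfold H677.Sk.PS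
  congr 1
  refine sum_congr rfl fun s _ => sum_congr rfl fun t _ => sum_congr rfl fun x0 _ => ?_
  simp only [TS_GD]
  simp only [sum_Icc_range]
  rw [sum_comm]
  refine sum_congr rfl fun j _ => ?_
  rw [sum_comm]

/-- a node of the main part with the stacked slot `(D, R C)`, `b` in the second place -/
theorem nf3_RC (s : Pt) (x0 : ℤ) (D : ℤ → ℤ → ι → ℝ) (k : ℕ) (m : Pt) :
    nf3 (shA K M s (A x0) k) (shB K M s (b x0) k) (RC Al o K M sg l u C s x0 k) k m =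
      nf3 (shA K M s (A x0) k) (fun x y => Sum.elim (0 : ι → ℝ) (shB K M s (b x0) k x y))
        (fun z x => Sum.elim (D z x) (RC Al o K M sg l u C s x0 k z x)) k m :=
  (nf3_inr ..).symm

/-- a node of the main part with the stacked slot `(R C, D)`, `b` in the first place -/
theorem nf3_RC' (s : Pt) (x0 : ℤ) (D : ℤ → ℤ → ι → ℝ) (k : ℕ) (m : Pt) :
    nf3 (shA K M s (A x0) k) (shB K M s (b x0) k) (RC Al o K M sg l u C s x0 k) k m =
      nf3 (shA K M s (A x0) k) (fun x y => Sum.elim (shB K M s (b x0) k x y) (0 : ι → ℝ))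
        (fun z x => Sum.elim (RC Al o K M sg l u C s x0 k z x) (D z x)) k m :=
  (nf3_inl ..).symm

/-! ### One grid, one root, one plane -/

theorem card_rt : (rt M).card = 3 := by
  unfold H677.rt
  rw [Int.card_Icc]
  omega

/-- the average over the grids of the sums over the roots and the planes -/
theorem avg_le (F : Pt → ℤ → ℤ → ℤ → Pt → ℝ) {B : ℝ}
    (h : ∀ s ∈ cb K 0, ∀ t ∈ rt M, ∀ j ∈ Icc (0 : ℤ) 2, ∀ e ∈ E8,
      ∑ x0 ∈ iv K t, F s t x0 j e ≤ B) :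
    ((8 : ℝ) ^ K)⁻¹ * ∑ s ∈ cb K 0, ∑ t ∈ rt M, ∑ x0 ∈ iv K t,
      ∑ j ∈ Icc (0 : ℤ) 2, ∑ e ∈ E8, F s t x0 j e ≤ 72 * B := by
  have h1 : ∀ s ∈ cb K 0, ∑ t ∈ rt M, ∑ x0 ∈ iv K t, ∑ j ∈ Icc (0 : ℤ) 2, ∑ e ∈ E8,
      F s t x0 j e ≤ 72 * B := by
    intro s hs
    have h2 : ∀ t ∈ rt M, ∑ x0 ∈ iv K t, ∑ j ∈ Icc (0 : ℤ) 2, ∑ e ∈ E8, F s t x0 j e ≤
        24 * B := by
      intro t ht
      rw [sum_comm]
      have h3 : ∀ j ∈ Icc (0 : ℤ) 2, ∑ x0 ∈ iv K t, ∑ e ∈ E8, F s t x0 j e ≤ 8 * B := by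
        intro j hj
        rw [sum_comm]
        refine (sum_le_card_nsmul E8 _ B fun e he => h s hs t ht j hj e he).trans (le_of_eq ?_)
        rw [show E8.card = 8 by decide, nsmul_eq_mul]
        norm_num
      refine (sum_le_card_nsmul (Icc (0 : ℤ) 2) _ (8 * B) h3).trans (le_of_eq ?_)
      rw [show (Icc (0 : ℤ) 2).card = 3 by decide, nsmul_eq_mul]
      push_cast
      ring
    refine (sum_le_card_nsmul (rt M) _ (24 * B) h2).trans (le_of_eq ?_)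
    rw [card_rt, nsmul_eq_mul]
    push_cast
    ring
  have h4 := sum_le_card_nsmul (cb K 0) _ (72 * B) h1
  rw [nsmul_eq_mul] at h4
  have h5 : ((cb K 0).card : ℝ) = 8 ^ K := by
    rw [PL.card_cb]
    push_cast
    ring
  rw [h5] at h4
  have h8 : (0 : ℝ) < 8 ^ K := by positivity
  calc ((8 : ℝ) ^ K)⁻¹ * ∑ s ∈ cb K 0, ∑ t ∈ rt M, ∑ x0 ∈ iv K t,
        ∑ j ∈ Icc (0 : ℤ) 2, ∑ e ∈ E8, F s t x0 j e
      ≤ ((8 : ℝ) ^ K)⁻¹ * (8 ^ K * (72 * B)) :=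
        mul_le_mul_of_nonneg_left h4 (by positivity)
    _ = 72 * B := by field_simp

/-- **The main part from one grid, one root, one plane.** -/
theorem PM_le {B : ℝ}
    (h : ∀ s ∈ cb K 0, ∀ t ∈ rt M, ∀ j ∈ Icc (0 : ℤ) 2, ∀ e ∈ E8,
      ∑ x0 ∈ iv K t, ∑ k ∈ Icc 1 K, ∑ m ∈ sG K M (-x0) s j e k,
        |nf3 (shA K M s (A x0) k) (shB K M s (b x0) k) (RC Al o K M sg l u C s x0 k) k m| ≤ B) :
    PM ι Al o K M sg l u A b C ≤ 72 * B := by
  rw [PM_forms]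
  exact avg_le K M (fun s _ x0 j e => ∑ k ∈ Icc 1 K, ∑ m ∈ sG K M (-x0) s j e k,
    |nf3 (shA K M s (A x0) k) (shB K M s (b x0) k) (RC Al o K M sg l u C s x0 k) k m|) h

/-- **The shift error from one grid, one root, one plane.** -/
theorem PS_le {B : ℝ}
    (h : ∀ s ∈ cb K 0, ∀ t ∈ rt M, ∀ j ∈ Icc (0 : ℤ) 2, ∀ e ∈ E8,
      ∑ x0 ∈ iv K t, ∑ k ∈ Icc 1 K, ∑ m ∈ sG K M (-x0) s j e k,
        |nf3 (shA K M s (A x0) k) (shB K M s (b x0) k) (DC Al o K M sg l u C s x0 k) k m| ≤ B) :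
    PS ι Al o K M sg l u A b C ≤ 72 * B := by
  rw [PS_forms]
  exact avg_le K M (fun s _ x0 j e => ∑ k ∈ Icc 1 K, ∑ m ∈ sG K M (-x0) s j e k,
    |nf3 (shA K M s (A x0) k) (shB K M s (b x0) k) (DC Al o K M sg l u C s x0 k) k m|) h

end parts

end

end Vale.Agent.P141.H747
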