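import Vale.Agent.P141.H677.SkelTF2
import Vale.Agent.P141.H747.CapG
import Vale.Agent.P141.H581.StageY

/-!
# P141, line (A): the node forms with any averaged slot on one plane of one grid, as stage sums

Letters of `H677.SkelTF2`: slot `R : Slt ι`, families `A`, `b`, `C` at every `x0`, grid `s`, plane
`j`, root `q` of the grid.

* `RgS` : the mean of the slot over the cells of the grid; `RgS_mart`, `RgS_le`, `shC_av`;
* `MA`, `MB`, `MC` : the node matrices, slot stacked `(ε C ; R C)`; **`FM1_UX`** : `FM1` as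
  `H581.UX`;
* `capMA`, `capMB`, `capMC` : the matrix caps;
* `FM1_sum` : sums of slots; `FM1_le` : from bounds of the stage sums.
-/

namespace Vale.Agent.P141.H747

open Finset Matrix
open Vale.Agent.P075 (gramC gramR)
open Vale.Agent.P141.PL (Pt iv hs ix mem_iv cb mem_cb cx tri)
open Vale.Agent.P141.PL.H804 (bx3 bl)
open Vale.Agent.P141.H958 (dup encR lbs)
open Vale.Agent.P141.H677 (rv rv_rv nf3 GA RT rt)
open Vale.Agent.P141.H677.Sk (FamA FamV Slt av FF FM1 FS1)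
open Vale.Agent.P141.H795 (nd tr TS E8 ys)
open Vale.Agent.P141.H609 (UN NM)
open Vale.Agent.P141.H581 (UX)
open Vale.Agent.P141.H205 (CapS)
open Vale.Agent.P141.H103 (un)

noncomputable section

open scoped Classical

variable {ι : Type} [Fintype ι]

/-! ### The slot -/

/-- the mean of the slot over the cell `n` of scale `k` of the grid `(h, h1)` in `(x3, x1)` -/
def RgS (R : Slt ι) (h h1 x0 : ℤ) (k : ℕ) (n x : ℤ) : Matrix ι ι ℝ :=
  ((2 : ℝ) ^ k)⁻¹ • ∑ w ∈ iv k n, R x0 0 (w + h) (x + h1)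

omit [Fintype ι] in
theorem RgS_avv (R : Slt ι) (h h1 x0 : ℤ) (k : ℕ) (n x : ℤ) :
    RgS R h h1 x0 k n x = H43.avv k n fun w => R x0 0 (w + h) (x + h1) := rfl

omit [Fintype ι] in
/-- the averaged slot is an exact martingale in the cell of `x3` -/
theorem RgS_mart (R : Slt ι) (h h1 x0 : ℤ) (k : ℕ) (n x : ℤ) :
    RgS R h h1 x0 (k + 1) n x = (1 / 2 : ℝ) •
      (RgS R h h1 x0 k (2 * n) x + RgS R h h1 x0 k (2 * n + 1) x) := by
  simp only [RgS_avv]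
  exact H43.avv_half ..

omit [Fintype ι] in
theorem av_RgS (R : Slt ι) (h h1 x0 : ℤ) (k : ℕ) (z x : ℤ) :
    av R h x0 k (z + h) (x + h1) = RgS R h h1 x0 k (ix k z) x := by
  unfold H677.Sk.av RgS
  rw [add_sub_cancel_right]

omit [Fintype ι] in
theorem RgS_sum {G : Type*} (gs : Finset G) (R : G → Slt ι) (h h1 x0 : ℤ) (k : ℕ) (n x : ℤ) :
    RgS (fun x0 j z x => ∑ g ∈ gs, R g x0 j z x) h h1 x0 k n x =
      ∑ g ∈ gs, RgS (R g) h h1 x0 k n x := by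
  unfold RgS
  rw [← smul_sum]
  congr 1
  exact sum_comm

/-- the mean of vectors -/
theorem mean_nsq {k : ℕ} {n : ℤ} (f : ℤ → ι → ℝ) :
    ((((2 : ℝ) ^ k)⁻¹ • ∑ w ∈ iv k n, f w) ⬝ᵥ (((2 : ℝ) ^ k)⁻¹ • ∑ w ∈ iv k n, f w)) ≤
      ((2 : ℝ) ^ k)⁻¹ * ∑ w ∈ iv k n, f w ⬝ᵥ f w := by
  have h2 : (0 : ℝ) < 2 ^ k := by positivity
  simp only [dotProduct, Pi.smul_apply, smul_eq_mul, Finset.sum_apply]
  rw [sum_comm (s := iv k n), mul_sum]
  refine sum_le_sum fun i _ => ?_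
  have h := sq_sum_le_card_mul_sum_sq (s := iv k n) (f := fun w => f w i)
  rw [PL.card_iv] at h
  push_cast at h
  have e : ((2 : ℝ) ^ k)⁻¹ * (∑ w ∈ iv k n, f w i) * (((2 : ℝ) ^ k)⁻¹ * ∑ w ∈ iv k n, f w i) =
      (((2 : ℝ) ^ k)⁻¹) ^ 2 * (∑ w ∈ iv k n, f w i) ^ 2 := by ring
  rw [e]
  refine (mul_le_mul_of_nonneg_left h (by positivity)).trans (le_of_eq ?_)
  have e2 : ∑ w ∈ iv k n, f w i ^ 2 = ∑ w ∈ iv k n, f w i * f w i :=
    sum_congr rfl fun w _ => sq _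
  rw [e2]
  field_simp

/-- **The averaged slot has the cap of the slot.** -/
theorem RgS_le {R : Slt ι} {q : ℝ} {x0 : ℤ}
    (hR : ∀ z x, ∀ a : ι → ℝ, (R x0 0 z x *ᵥ a) ⬝ᵥ (R x0 0 z x *ᵥ a) ≤ q * (a ⬝ᵥ a))
    (h h1 : ℤ) (k : ℕ) (n x : ℤ) (a : ι → ℝ) :
    (RgS R h h1 x0 k n x *ᵥ a) ⬝ᵥ (RgS R h h1 x0 k n x *ᵥ a) ≤ q * (a ⬝ᵥ a) := by
  have e : RgS R h h1 x0 k n x *ᵥ a =
      ((2 : ℝ) ^ k)⁻¹ • ∑ w ∈ iv k n, R x0 0 (w + h) (x + h1) *ᵥ a := by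
    unfold RgS
    rw [smul_mulVec, sum_mulVec]
  rw [e]
  refine (mean_nsq fun w => R x0 0 (w + h) (x + h1) *ᵥ a).trans ?_
  have h2 : ∑ w ∈ iv k n, (R x0 0 (w + h) (x + h1) *ᵥ a) ⬝ᵥ (R x0 0 (w + h) (x + h1) *ᵥ a) ≤
      ∑ _w ∈ iv k n, q * (a ⬝ᵥ a) := sum_le_sum fun w _ => hR _ _ a
  rw [sum_const, PL.card_iv, nsmul_eq_mul] at h2
  push_cast at h2
  have h3 := mul_le_mul_of_nonneg_left h2 (by positivity : (0 : ℝ) ≤ ((2 : ℝ) ^ k)⁻¹)
  refine h3.trans (le_of_eq ?_)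
  field_simp

/-- the translated slot on the translated function -/
theorem shC_av (K : ℕ) (M s : Pt) (R : Slt ι) (C : ℕ → ℤ → ℤ → ι → ℝ) (x0 : ℤ) (k : ℕ)
    (z x : ℤ) :
    shC K M s (fun k z x => av R s.2.2 x0 k z x *ᵥ C k z x) k z x =
      RgS R s.2.2 s.1 x0 k (ix k z) x *ᵥ shC K M s C k z x := by
  unfold shC
  rw [← av_RgS]
  unfold sft
  split_ifs
  · rfl
  · rw [mulVec_zero]

/-! ### The node matrices -/

section one

variable (K : ℕ) (M : Pt) (R : Slt ι) (A : FamA) (b C : FamV ι)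

/-- `b` on the grid `s`, second place of the stack -/
def MSb (s : Pt) (x0 : ℤ) (k : ℕ) (x y : ℤ) : ι ⊕ ι → ℝ :=
  Sum.elim (0 : ι → ℝ) (shB K M s (b x0) k x y)

/-- the stacked slot `(ε C ; R C)` on the grid `s` -/
def MSc (ε : ℝ) (s : Pt) (x0 : ℤ) (k : ℕ) (z x : ℤ) : ι ⊕ ι → ℝ :=
  Sum.elim (ε • shC K M s (C x0) k z x)
    (RgS R s.2.2 s.1 x0 k (ix k z) x *ᵥ shC K M s (C x0) k z x)

/-- the matrix of `A` -/
def MA (L : ℕ) (s : Pt) (x0 : ℤ) : NM := fun k m =>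
  bl k (gA L (shA K M s (A x0)) k) m.1 m.2.1

/-- the matrix of `b` -/
def MB (L : ℕ) (e : ι ⊕ ι → ℤ) (s : Pt) (x0 : ℤ) : NM := fun k m =>
  bl k (gB L e (MSb K M b s x0) k) m.2.1 m.2.2

/-- the matrix of the stacked slot -/
def MC (L : ℕ) (e : ι ⊕ ι → ℤ) (ε : ℝ) (s : Pt) (x0 : ℤ) : NM := fun k m =>
  (bl k (gC L e (MSc K M R C ε s x0) k) m.1 m.2.2)ᵀ

/-- **The node forms on one plane of one grid as `H581.UX`.** -/
theorem FM1_UX {L : ℕ} {e : ι ⊕ ι → ℤ} (he : Function.Injective e) (hm : ∀ i, e i ∈ lbs L)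
    (ε cA cB cC : ℝ) (s : Pt) (j : ℤ) (q : Pt) :
    FM1 K M R A b C s j q = ∑ t ∈ rt M, (4 ^ L : ℝ)⁻¹ *
      UX (iv K t) (K + L) (fun x0 => sL L (sG K M (-x0) s j q)) cA cB cC
        (MA K M A L s) (MB K M b L e s) (MC K M R C L e ε s) 0 0 0 := by
  unfold H677.Sk.FM1 H677.Sk.FF
  refine sum_congr rfl fun t _ => ?_
  unfold H581.UX
  rw [mul_sum]
  refine sum_congr rfl fun x0 _ => ?_
  have h := UN_nf3 he hm K (sG K M (-x0) s j q) (shA K M s (A x0)) (MSb K M b s x0)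
    (MSc K M R C ε s x0) cA cB cC
  refine Eq.trans ?_ h
  refine sum_congr rfl fun k _ => sum_congr rfl fun m _ => ?_
  have e1 : shC K M s (fun k z x => av R s.2.2 x0 k z x *ᵥ C x0 k z x) k =
      fun z x => RgS R s.2.2 s.1 x0 k (ix k z) x *ᵥ shC K M s (C x0) k z x := by
    funext z x
    exact shC_av ..
  rw [e1]
  congr 1
  exact (nf3_inr (shA K M s (A x0) k) (shB K M s (b x0) k)
    (fun z x => RgS R s.2.2 s.1 x0 k (ix k z) x *ᵥ shC K M s (C x0) k z x)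
    (fun z x => ε • shC K M s (C x0) k z x) k m).symm

/-- **The node forms from the stage sums.** -/
theorem FM1_le {L : ℕ} {e : ι ⊕ ι → ℤ} (he : Function.Injective e) (hm : ∀ i, e i ∈ lbs L)
    {ε cA cB cC B : ℝ} {s : Pt} {j : ℤ} {q : Pt}
    (h : ∀ t ∈ rt M, UX (iv K t) (K + L) (fun x0 => sL L (sG K M (-x0) s j q)) cA cB cC
        (MA K M A L s) (MB K M b L e s) (MC K M R C L e ε s) 0 0 0 ≤ 4 ^ L * B) :
    FM1 K M R A b C s j q ≤ 3 * B := by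
  rw [FM1_UX K M R A b C he hm ε cA cB cC s j q]
  have h1 : ∀ t ∈ rt M, (4 ^ L : ℝ)⁻¹ * UX (iv K t) (K + L)
      (fun x0 => sL L (sG K M (-x0) s j q)) cA cB cC
        (MA K M A L s) (MB K M b L e s) (MC K M R C L e ε s) 0 0 0 ≤ B := by
    intro t ht
    have h4 : (0 : ℝ) < 4 ^ L := by positivity
    rw [inv_mul_le_iff₀ h4]
    exact h t ht
  refine (sum_le_card_nsmul (rt M) _ B h1).trans (le_of_eq ?_)
  have h3 : (rt M).card = 3 := by
    unfold H677.rt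
    rw [Int.card_Icc]
    omega
  rw [h3, nsmul_eq_mul]
  norm_num

end one

/-- **Sums of slots.** -/
theorem FM1_sum {G : Type*} (gs : Finset G) (K : ℕ) (M : Pt) (R : G → Slt ι) (A : FamA)
    (b C : FamV ι) (s : Pt) (j : ℤ) (q : Pt) :
    FM1 K M (fun x0 j z x => ∑ g ∈ gs, R g x0 j z x) A b C s j q ≤
      ∑ g ∈ gs, FM1 K M (R g) A b C s j q := by
  unfold H677.Sk.FM1
  have e : av (fun x0 j z x => ∑ g ∈ gs, R g x0 j z x) s.2.2 =
      fun x0 k z x => ∑ g ∈ gs, av (R g) s.2.2 x0 k z x := by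
    funext x0
    exact H677.Sk.av_sum' gs R s.2.2 x0
  rw [e]
  exact H677.Sk.FF_sum gs K M (fun g => av (R g) s.2.2) A b C s j q

/-! ### The caps -/

section caps

variable {K : ℕ} {M : Pt} {R : Slt ι} {A : FamA} {b C : FamV ι} {L : ℕ} {e : ι ⊕ ι → ℤ}

theorem un_shA (N : ℕ) (Q S a a' : ℤ) (F : ℤ → ℤ → ℝ) :
    un (sft N Q S a a' F) = sft N Q S a a' (un F) := by
  funext x y i
  unfold H103.un sft
  split_ifs <;> rfl

/-- **The hypothesis `capA`**: `th` = the cap of `A` on the standard squares. -/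
theorem capMA {th : ℝ} (hth : 0 < th) (s : Pt) {x0 : ℤ}
    (h : ∀ k ≤ K, ∀ n m, CapS th k k (un (A x0 k)) n m) (nd : ℕ → Finset Pt) :
    ∀ k ∈ Icc 1 (K + L), ∀ m ∈ sL L nd k,
      (1 - gramC (((√(4 * th)) ^ 2)⁻¹ * (4 ^ k)⁻¹) (MA K M A L s x0 k m)).PosSemidef := by
  have h4 : 0 < 4 * th := by linarith
  refine fam_psdA (Real.sqrt_pos.2 h4) fun k hk m _ => ?_
  rw [mem_Icc] at hk
  rw [Real.sq_sqrt h4.le]
  unfold shA
  rw [un_shA]
  exact capS_sft hk.2 hth.le (h k hk.2) _ _ _ _ _ _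

/-- the cap of the second place of the stack -/
theorem capS_snd {k : ℕ} {n m : ℤ} {c : ℝ} {F : ℤ → ℤ → ι → ℝ} (h : CapS c k k F n m) :
    CapS c k k (fun x y => Sum.elim (0 : ι → ℝ) (F x y) : ℤ → ℤ → ι ⊕ ι → ℝ) n m := by
  intro w
  refine le_trans (le_of_eq ?_) (h w)
  refine sum_congr rfl fun x _ => ?_
  rw [Fintype.sum_sum_type]
  simp

/-- **The hypothesis `capB`.** -/
theorem capMB (he : Function.Injective e) (hm : ∀ i, e i ∈ lbs L) {th : ℝ} (hth : 0 < th)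
    (s : Pt) {x0 : ℤ} (h : ∀ k ≤ K, ∀ n m, CapS th k k (b x0 k) n m) (nd : ℕ → Finset Pt) :
    ∀ k ∈ Icc 1 (K + L), ∀ m ∈ sL L nd k,
      (1 - gramC (((√(4 * th)) ^ 2)⁻¹ * (4 ^ k)⁻¹) (MB K M b L e s x0 k m)).PosSemidef := by
  have h4 : 0 < 4 * th := by linarith
  refine fam_psdB he hm (Real.sqrt_pos.2 h4) fun k hk m _ => ?_
  rw [mem_Icc] at hk
  rw [Real.sq_sqrt h4.le]
  exact capS_snd (capS_sft hk.2 hth.le (h k hk.2) _ _ _ _ _ _)

/-- **The hypothesis `capC`**: `th` = the cap of `C` in the direction `z → x`, `q` = the square of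
the cap of the slot. -/
theorem capMC (he : Function.Injective e) (hm : ∀ i, e i ∈ lbs L) {th ε q : ℝ} (hth : 0 < th)
    (hq : 0 ≤ q) (hε : 0 < ε ^ 2 + q) (s : Pt) {x0 : ℤ}
    (h : ∀ k ≤ K, ∀ n m, CapS th k k (fun x z => C x0 k z x) n m)
    (hR : ∀ z x, ∀ a : ι → ℝ, (R x0 0 z x *ᵥ a) ⬝ᵥ (R x0 0 z x *ᵥ a) ≤ q * (a ⬝ᵥ a))
    (nd : ℕ → Finset Pt) :
    ∀ k ∈ Icc 1 (K + L), ∀ m ∈ sL L nd k,
      (1 - gramC (((√((ε ^ 2 + q) * (4 * th))) ^ 2)⁻¹ * (4 ^ k)⁻¹)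
        (MC K M R C L e ε s x0 k m)).PosSemidef := by
  have h4 : 0 < (ε ^ 2 + q) * (4 * th) := by positivity
  refine fam_psdC he hm (Real.sqrt_pos.2 h4) fun k hk m _ => ?_
  rw [mem_Icc] at hk
  rw [Real.sq_sqrt h4.le]
  have h1 : CapS (4 * th) k k (fun x z => shC K M s (C x0) k z x) m.2.2 m.1 := by
    unfold shC
    have e1 : (fun x z => sft K M.2.2 M.1 s.2.2 s.1 (C x0 k) z x) =
        sft K M.1 M.2.2 s.1 s.2.2 fun x z => C x0 k z x := by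
      funext x z
      exact sft_swap ..
    rw [e1]
    exact capS_sft hk.2 hth.le (h k hk.2) _ _ _ _ _ _
  have h2 := capS_stack (ε := ε) (q := q) (Q := fun x => RgS R s.2.2 s.1 x0 k m.1 x)
    (fun x _ a => RgS_le hR s.2.2 s.1 k m.1 x a) hq h1
  refine H205.capS_congr (fun x _ z hz => ?_) h2
  unfold MSc
  rw [mem_iv.1 hz]

end caps

end

end Vale.Agent.P141.H747
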